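import Vale.Agent.P249.R2.H445.IterU

/-!
# P249 (helper445): the endpoint exponents for all sets
-/

open MeasureTheory
open scoped BigOperators ENNReal

namespace Vale.Agent.P249.H445

/-- Kernels for `P > 2`, with the moment sum `(log n) ^ (P / 2) log log n`. -/
theorem kernels_log (P : ℝ) (hP : 2 < P) : ∃ C : ℝ, 0 < C ∧
    ∀ {V : Type*} [Fintype V] [Nonempty V] {N : ℕ} (f : V → Fin N → ℝ),
      HasKernels P (lpd P f) (C * ((1 + Real.log (Fintype.card V)) ^ (P / 2) *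
        (1 + Real.log (1 + Real.log (Fintype.card V))))) := by
  obtain ⟨A, hA, H⟩ := Vale.Agent.P249.H560.kernels_sum hP
  obtain ⟨A₀, hA₀⟩ : ∃ A₀ : ℝ, A₀ = 4 ^ (P + 1) * (16 * P * 2 ^ (P - 2)) ^ 2 := ⟨_, rfl⟩
  have hP0 : 0 < P := by linarith only [hP]
  have hA₀0 : 0 ≤ A₀ := by rw [hA₀]; positivity
  set C₁ : ℝ := 7 + 2 * (1 + Real.log (1 + A₀)) with hC₁
  have hlogA : 0 ≤ Real.log (1 + A₀) := Real.log_nonneg (by linarith only [hA₀0])
  have hC₁0 : 0 < C₁ := by positivity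
  refine ⟨A * (1 + A₀) ^ (P / 2 - 1) * C₁, by positivity, ?_⟩
  intro V _ _ N f
  set l := Real.log (Fintype.card V) with hl
  have hcard : (1 : ℝ) ≤ Fintype.card V := by exact_mod_cast Fintype.card_pos
  have hl0 : 0 ≤ l := Real.log_nonneg hcard
  have hl1 : 1 ≤ 1 + l := by linarith only [hl0]
  have hlp : 0 < 1 + l := by linarith only [hl0]
  have hll : 0 ≤ Real.log (1 + l) := Real.log_nonneg hl1
  set R : ℝ := Real.sqrt (1 + A₀ * l) with hR
  have hAl : 0 ≤ A₀ * l := mul_nonneg hA₀0 hl0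
  have hR2 : R ^ 2 = 1 + A₀ * l := Real.sq_sqrt (by linarith only [hAl])
  have hR1 : 1 ≤ R := by rw [hR, Real.one_le_sqrt]; linarith only [hAl]
  have hR0 : 0 < R := by linarith only [hR1]
  obtain ⟨k, -, hk, hk'⟩ := exists_iterations (l := 2 * R) (by linarith only [hR1])
  refine Vale.Agent.P249.H560.HasKernels.mono (H f R hR1 ?_ k hk) ?_
  · rw [hR2, hA₀]
    linarith only []
  have hRle : R ^ 2 ≤ (1 + A₀) * (1 + l) := by
    rw [hR2]
    nlinarith only [hA₀0, hl0]
  have h1 : R ^ (P - 2) ≤ (1 + A₀) ^ (P / 2 - 1) * (1 + l) ^ (P / 2 - 1) := by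
    rw [← Real.mul_rpow (by positivity) hlp.le]
    have : R ^ (P - 2) = (R ^ 2) ^ (P / 2 - 1) := by
      rw [← Real.rpow_natCast, ← Real.rpow_mul hR0.le]
      congr 1
      push_cast
      ring
    rw [this]
    exact Real.rpow_le_rpow (by positivity) hRle (by linarith only [hP])
  have h2 : (k : ℝ) + 3 ≤ C₁ * (1 + Real.log (1 + l)) := by
    have e1 : Real.log (2 * R) ≤ 1 + Real.log (1 + A₀) + Real.log (1 + l) := by
      rw [Real.log_mul (by norm_num) hR0.ne']
      have e2 : 2 * Real.log R ≤ Real.log (1 + A₀) + Real.log (1 + l) := by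
        have e3 : 2 * Real.log R = Real.log (R ^ 2) := by rw [Real.log_pow]; push_cast; ring
        rw [e3, ← Real.log_mul (by positivity) hlp.ne']
        exact Real.log_le_log (by positivity) hRle
      have e4 : Real.log 2 ≤ 1 := by linarith only [Real.log_two_lt_d9]
      linarith only [e2, e4, hll, hlogA]
    have e5 : 0 ≤ (2 * Real.log (1 + A₀)) * Real.log (1 + l) := by positivity
    rw [hC₁]
    nlinarith only [hk', e1, e5, hll, hlogA]
  have h3 : (1 + l) ^ (P / 2) = (1 + l) ^ (P / 2 - 1) * (1 + l) := by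
    have : P / 2 = P / 2 - 1 + 1 := by ring
    nth_rewrite 1 [this]
    rw [Real.rpow_add hlp, Real.rpow_one]
  rw [h3]
  have h4 : 0 ≤ (1 + A₀) ^ (P / 2 - 1) * (1 + l) ^ (P / 2 - 1) := by positivity
  have h5 : 0 ≤ C₁ * (1 + Real.log (1 + l)) := by positivity
  have hk3 : (0 : ℝ) ≤ (k : ℝ) + 3 := by positivity
  calc A * R ^ (P - 2) * (k + 3) * l
      ≤ A * ((1 + A₀) ^ (P / 2 - 1) * (1 + l) ^ (P / 2 - 1)) * (C₁ * (1 + Real.log (1 + l))) *
          (1 + l) := by
        refine mul_le_mul ?_ (by linarith only []) hl0 (by positivity)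
        refine mul_le_mul (mul_le_mul_of_nonneg_left h1 hA.le) h2 hk3 (by positivity)
    _ = _ := by ring

/-- `1 ≤ p ≤ 2`: dimension `exp (C (log n) ^ (1 / p) / ε)`. -/
theorem all_le_two (hpar : SpecPar) (p : ℝ≥0∞) [Fact (1 ≤ p)] (hp : p ≤ 2) :
    ∃ C : ℝ, 0 < C ∧ ∀ n : ℕ, 2 ≤ n → ∀ ε : ℝ, 0 < ε → ε ≤ 1 →
      ∀ (Ω : Type) [MeasurableSpace Ω] (μ : Measure Ω) (X : Finset (Lp ℝ p μ)), X.card ≤ n →
        ∃ (d : ℕ) (f : Lp ℝ p μ → PiLp p (fun _ : Fin d => ℝ)),
          (d : ℝ) ≤ Real.exp (C * (1 + Real.log n) ^ (1 / p.toReal) / ε) ∧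
            DistortionAtMost X f (1 + ε) := by
  have hptop : p ≠ ∞ := fun h => by rw [h] at hp; exact absurd hp (by simp)
  have hP0 := toReal_pos_of_fact (p := p) hptop
  have hP1 := one_le_toReal_of_fact (p := p) hptop
  have hP2 : p.toReal ≤ 2 := by
    have := ENNReal.toReal_mono (by norm_num : (2 : ℝ≥0∞) ≠ ∞) hp
    simpa using this
  obtain ⟨K, hK, hker⟩ := kernels_le_two p.toReal hP1 hP2
  obtain ⟨C, hC, h⟩ := embedU hpar p hptop (K := K + 1) (by linarith only [hK])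
  refine ⟨C, hC, fun n hn ε hε hε1 Ω _ μ X hX => ?_⟩
  have hnr : (1 : ℝ) ≤ n := by exact_mod_cast (by omega : 1 ≤ n)
  have hlog := Real.log_nonneg hnr
  have hl1 : 1 ≤ 1 + Real.log n := by linarith only [hlog]
  refine h n hn ((1 + Real.log n) ^ (1 / p.toReal)) ?_ ?_ ε hε hε1 Ω μ X hX
  · rw [Real.sqrt_eq_rpow]
    exact Real.rpow_le_rpow_of_exponent_le hl1 (one_div_le_one_div_of_le hP0 hP2)
  · intro V _ _ N f hV
    have hcard : (1 : ℝ) ≤ Fintype.card V := by exact_mod_cast Fintype.card_pos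
    have h1 : Real.log (Fintype.card V) ≤ Real.log n :=
      Real.log_le_log (by linarith only [hcard]) (by exact_mod_cast hV)
    refine Vale.Agent.P249.H560.HasKernels.mono (hker f) ?_
    rw [← Real.rpow_mul (by linarith only [hl1]), one_div_mul_cancel hP0.ne', Real.rpow_one]
    nlinarith only [h1, hK, hlog, Real.log_nonneg hcard]

/-- `p > 2`: dimension `exp (C (log n) ^ (1 / 2) (log log n) ^ (1 / p) / ε)`. -/
theorem all_gt_two (hpar : SpecPar) (p : ℝ≥0∞) [Fact (1 ≤ p)] (hp : 2 < p) (hptop : p ≠ ∞) :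
    ∃ C : ℝ, 0 < C ∧ ∀ n : ℕ, 2 ≤ n → ∀ ε : ℝ, 0 < ε → ε ≤ 1 →
      ∀ (Ω : Type) [MeasurableSpace Ω] (μ : Measure Ω) (X : Finset (Lp ℝ p μ)), X.card ≤ n →
        ∃ (d : ℕ) (f : Lp ℝ p μ → PiLp p (fun _ : Fin d => ℝ)),
          (d : ℝ) ≤ Real.exp (C * ((1 + Real.log n) ^ (1 / 2 : ℝ) *
            (1 + Real.log (1 + Real.log n)) ^ (1 / p.toReal)) / ε) ∧
            DistortionAtMost X f (1 + ε) := by
  have hP0 := toReal_pos_of_fact (p := p) hptop
  have hP1 := one_le_toReal_of_fact (p := p) hptop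
  have hP2 : 2 < p.toReal := by
    have := (ENNReal.toReal_lt_toReal (by norm_num : (2 : ℝ≥0∞) ≠ ∞) hptop).2 hp
    simpa using this
  obtain ⟨K, hK, hker⟩ := kernels_log p.toReal hP2
  obtain ⟨C, hC, h⟩ := embedU hpar p hptop (K := K + 1) (by linarith only [hK])
  refine ⟨C, hC, fun n hn ε hε hε1 Ω _ μ X hX => ?_⟩
  have hnr : (1 : ℝ) ≤ n := by exact_mod_cast (by omega : 1 ≤ n)
  have hlog := Real.log_nonneg hnr
  have hl1 : 1 ≤ 1 + Real.log n := by linarith only [hlog]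
  have hl0 : 0 ≤ 1 + Real.log n := by linarith only [hl1]
  have hll := Real.log_nonneg hl1
  have hll1 : 1 ≤ 1 + Real.log (1 + Real.log n) := by linarith only [hll]
  have hll0 : 0 ≤ 1 + Real.log (1 + Real.log n) := by linarith only [hll1]
  refine h n hn ((1 + Real.log n) ^ (1 / 2 : ℝ) *
            (1 + Real.log (1 + Real.log n)) ^ (1 / p.toReal)) ?_ ?_ ε hε hε1 Ω μ X hX
  · rw [Real.sqrt_eq_rpow]
    exact le_mul_of_one_le_right (Real.rpow_nonneg hl0 _) (Real.one_le_rpow hll1 (by positivity))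
  · intro V _ _ N f hV
    have hcard : (1 : ℝ) ≤ Fintype.card V := by exact_mod_cast Fintype.card_pos
    have hlc := Real.log_nonneg hcard
    have h1 : Real.log (Fintype.card V) ≤ Real.log n :=
      Real.log_le_log (by linarith only [hcard]) (by exact_mod_cast hV)
    refine Vale.Agent.P249.H560.HasKernels.mono (hker f) ?_
    rw [Real.mul_rpow (Real.rpow_nonneg hl0 _) (Real.rpow_nonneg hll0 _), ← Real.rpow_mul hl0,
      ← Real.rpow_mul hll0, one_div_mul_cancel hP0.ne', Real.rpow_one]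
    have e : (1 / 2 : ℝ) * p.toReal = p.toReal / 2 := by ring
    rw [e]
    have h2 : (1 + Real.log (Fintype.card V)) ^ (p.toReal / 2) ≤ (1 + Real.log n) ^ (p.toReal / 2) :=
      Real.rpow_le_rpow (by linarith only [hlc]) (by linarith only [h1]) (by positivity)
    have h3 : Real.log (1 + Real.log (Fintype.card V)) ≤ Real.log (1 + Real.log n) :=
      Real.log_le_log (by linarith only [hlc]) (by linarith only [h1])
    have h4 : 0 ≤ Real.log (1 + Real.log (Fintype.card V)) :=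
      Real.log_nonneg (by linarith only [hlc])
    apply mul_le_mul (by linarith only []) _ (by positivity) (by linarith only [hK])
    apply mul_le_mul h2 (by linarith only [h3]) (by linarith only [h4]) (Real.rpow_nonneg hl0 _)

end Vale.Agent.P249.H445
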