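import Vale.Agent.P249.R2.H445.Step

/-!
# P249.AspectRatio (helper445): iteration of the steps
-/

open scoped BigOperators ENNReal

namespace Vale.Agent.P249.H445

/-- The conclusion of one step, with the constant `C`. -/
def StepStatement (p : ℝ≥0∞) [Fact (1 ≤ p)] (C : ℝ) : Prop :=
  ∀ δ : ℝ, 0 < δ → δ ≤ 1 → ∀ R : ℝ, 1 ≤ R → ∀ (V : Type) [Fintype V]
      [Nonempty V] (N : ℕ) (f : V → PiLp p (fun _ : Fin N => ℝ)), 0 < N →
      (∃ s : ℝ, 0 < s ∧ ∀ x y, x ≠ y → s ≤ ‖f x - f y‖ ∧ ‖f x - f y‖ ≤ s * R) →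
      ∃ (d : ℕ) (F : V → PiLp p (fun _ : Fin d => ℝ)), 0 < d ∧
        (d : ℝ) ≤ (N : ℝ) ^ (3 / 4 : ℝ) *
          (Real.exp (C / δ) * (R * (1 + Real.log (Fintype.card V))) ^ C) ∧
        ∀ x y, (1 - δ) * ‖f x - f y‖ ^ p.toReal ≤ ‖F x - F y‖ ^ p.toReal ∧
          ‖F x - F y‖ ^ p.toReal ≤ (1 + δ) * ‖f x - f y‖ ^ p.toReal

/-- Iterating `k` steps with geometrically increasing accuracies. -/
theorem iterate (p : ℝ≥0∞) [Fact (1 ≤ p)] (hp : p ≠ ∞) {C : ℝ} (hC : 1 ≤ C)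
    (H : StepStatement p C) {R : ℝ} (hR : 1 ≤ R) (V : Type) [Fintype V] [Nonempty V]
    {A : ℝ} (hA : A = (9 * R * (1 + Real.log (Fintype.card V))) ^ C) (k : ℕ) :
    ∀ η : ℝ, 0 < η → η ≤ 1 → ∀ (N : ℕ) (f : V → PiLp p (fun _ : Fin N => ℝ)), 0 < N →
      (∃ s : ℝ, 0 < s ∧ ∀ x y, x ≠ y → s ≤ ‖f x - f y‖ ∧ ‖f x - f y‖ ≤ s * R) →
      ∃ (d : ℕ) (F : V → PiLp p (fun _ : Fin d => ℝ)), 0 < d ∧
        (d : ℝ) ≤ (N : ℝ) ^ ((3 / 4 : ℝ) ^ k) * (Real.exp (112 * C / η) * A ^ 4) ∧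
        ∀ x y, Real.exp (-η) * ‖f x - f y‖ ^ p.toReal ≤ ‖F x - F y‖ ^ p.toReal ∧
          ‖F x - F y‖ ^ p.toReal ≤ Real.exp η * ‖f x - f y‖ ^ p.toReal := by
  have hP0 := toReal_pos_of_fact (p := p) hp
  have hP1 := one_le_toReal_of_fact (p := p) hp
  have hcard : (1 : ℝ) ≤ Fintype.card V := by exact_mod_cast Fintype.card_pos
  have hlog := Real.log_nonneg hcard
  have hbase : 1 ≤ 9 * R * (1 + Real.log (Fintype.card V)) := by nlinarith only [hR, hlog]
  have hA1 : 1 ≤ A := by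
    rw [hA]; exact Real.one_le_rpow hbase (by linarith only [hC])
  have hA4 : 1 ≤ A ^ 4 := one_le_pow₀ hA1
  induction k with
  | zero =>
    intro η hη hη1 N f hN hs
    refine ⟨N, f, hN, ?_, fun x y => ⟨?_, ?_⟩⟩
    · have h1 : 1 ≤ Real.exp (112 * C / η) := Real.one_le_exp (by positivity)
      have h2 : (0:ℝ) ≤ N := Nat.cast_nonneg N
      rw [pow_zero, Real.rpow_one]
      exact le_mul_of_one_le_right h2 (one_le_mul_of_one_le_of_one_le h1 hA4)
    · have h1 : Real.exp (-η) ≤ 1 := Real.exp_le_one_iff.2 (by linarith only [hη])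
      exact mul_le_of_le_one_left (Real.rpow_nonneg (norm_nonneg _) _) h1
    · have h1 : 1 ≤ Real.exp η := Real.one_le_exp hη.le
      exact le_mul_of_one_le_left (Real.rpow_nonneg (norm_nonneg _) _) h1
  | succ k ih =>
    intro η hη hη1 N f hN hs
    obtain ⟨d₁, F₁, hd₁, hd₁N, hF₁⟩ := ih (7 / 8 * η) (by positivity) (by linarith only [hη1, hη])
      N f hN hs
    obtain ⟨s, hs0, hs⟩ := hs
    have he0 : 0 < Real.exp (-1) := Real.exp_pos _
    have hη8 : 7 / 8 * η ≤ 1 := by linarith only [hη1, hη]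
    -- distances of the first map
    have hlow : ∀ x y, Real.exp (-1) * ‖f x - f y‖ ≤ ‖F₁ x - F₁ y‖ := by
      intro x y
      refine (Real.rpow_le_rpow_iff (by positivity) (norm_nonneg _) hP0).1 ?_
      refine le_trans ?_ (hF₁ x y).1
      rw [Real.mul_rpow he0.le (norm_nonneg _)]
      apply mul_le_mul_of_nonneg_right _ (Real.rpow_nonneg (norm_nonneg _) _)
      rw [← Real.exp_mul]
      apply Real.exp_le_exp.2
      nlinarith only [hP1, hη8]
    have hupp : ∀ x y, ‖F₁ x - F₁ y‖ ≤ Real.exp 1 * ‖f x - f y‖ := by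
      intro x y
      refine (Real.rpow_le_rpow_iff (norm_nonneg _) (by positivity) hP0).1 ?_
      refine (hF₁ x y).2.trans ?_
      rw [Real.mul_rpow (Real.exp_pos _).le (norm_nonneg _)]
      apply mul_le_mul_of_nonneg_right _ (Real.rpow_nonneg (norm_nonneg _) _)
      rw [← Real.exp_mul]
      apply Real.exp_le_exp.2
      nlinarith only [hP1, hη8]
    have h9 : Real.exp 1 ≤ Real.exp (-1) * 9 := by
      have h1 : Real.exp 1 = Real.exp (-1) * Real.exp 1 ^ 2 := by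
        rw [← Real.exp_nat_mul, ← Real.exp_add]
        congr 1
        norm_num
      have h2 : Real.exp 1 ≤ 3 := by linarith only [Real.exp_one_lt_d9]
      have h3 : Real.exp 1 ^ 2 ≤ 9 := by
        have := Real.exp_pos 1
        nlinarith only [h2, this]
      calc Real.exp 1 = Real.exp (-1) * Real.exp 1 ^ 2 := h1
        _ ≤ _ := mul_le_mul_of_nonneg_left h3 he0.le
    have hasp : ∃ s' : ℝ, 0 < s' ∧ ∀ x y, x ≠ y → s' ≤ ‖F₁ x - F₁ y‖ ∧
        ‖F₁ x - F₁ y‖ ≤ s' * (9 * R) := by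
      refine ⟨Real.exp (-1) * s, by positivity, fun x y hxy => ⟨?_, ?_⟩⟩
      · exact (mul_le_mul_of_nonneg_left (hs x y hxy).1 he0.le).trans (hlow x y)
      · calc ‖F₁ x - F₁ y‖ ≤ Real.exp 1 * ‖f x - f y‖ := hupp x y
          _ ≤ Real.exp 1 * (s * R) := mul_le_mul_of_nonneg_left (hs x y hxy).2 (Real.exp_pos _).le
          _ ≤ (Real.exp (-1) * 9) * (s * R) := mul_le_mul_of_nonneg_right h9 (by positivity)
          _ = _ := by ring
    obtain ⟨d₂, F₂, hd₂, hd₂N, hF₂⟩ := H (η / 16) (by positivity) (by linarith only [hη1])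
      (9 * R) (by linarith only [hR]) V d₁ F₁ hd₁ hasp
    refine ⟨d₂, F₂, hd₂, ?_, fun x y => ⟨?_, ?_⟩⟩
    · -- the dimension
      rw [← hA] at hd₂N
      have hN0 : (0:ℝ) ≤ N := Nat.cast_nonneg N
      have hd0 : (0:ℝ) ≤ d₁ := Nat.cast_nonneg d₁
      have hA0 : 0 ≤ A := by linarith only [hA1]
      have h1 : (d₁ : ℝ) ^ (3 / 4 : ℝ) ≤
          ((N : ℝ) ^ ((3 / 4 : ℝ) ^ k) * (Real.exp (112 * C / (7 / 8 * η)) * A ^ 4)) ^ (3 / 4 : ℝ) :=
        Real.rpow_le_rpow hd0 hd₁N (by norm_num)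
      have h2 : ((N : ℝ) ^ ((3 / 4 : ℝ) ^ k) *
          (Real.exp (112 * C / (7 / 8 * η)) * A ^ 4)) ^ (3 / 4 : ℝ) =
          (N : ℝ) ^ ((3 / 4 : ℝ) ^ (k + 1)) * (Real.exp (96 * C / η) * A ^ 3) := by
        rw [Real.mul_rpow (Real.rpow_nonneg hN0 _) (by positivity),
          Real.mul_rpow (Real.exp_pos _).le (by positivity), ← Real.rpow_mul hN0, ← Real.exp_mul,
          ← Real.rpow_natCast A 4, ← Real.rpow_mul hA0, ← Real.rpow_natCast A 3, pow_succ]
        congr 2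
        · congr 1
          field_simp
          norm_num
        · congr 1
          norm_num
      rw [h2] at h1
      have h3 : Real.exp (96 * C / η) * Real.exp (C / (η / 16)) = Real.exp (112 * C / η) := by
        rw [← Real.exp_add]
        congr 1
        field_simp
        ring
      calc (d₂ : ℝ) ≤ (d₁ : ℝ) ^ (3 / 4 : ℝ) * (Real.exp (C / (η / 16)) * A) := hd₂N
        _ ≤ ((N : ℝ) ^ ((3 / 4 : ℝ) ^ (k + 1)) * (Real.exp (96 * C / η) * A ^ 3)) *
            (Real.exp (C / (η / 16)) * A) := mul_le_mul_of_nonneg_right h1 (by positivity)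
        _ = (N : ℝ) ^ ((3 / 4 : ℝ) ^ (k + 1)) *
            ((Real.exp (96 * C / η) * Real.exp (C / (η / 16))) * A ^ 4) := by ring
        _ = _ := by rw [h3]
    · have h1 : Real.exp (-(η / 8)) ≤ 1 - η / 16 := by
        have h2 := Real.abs_exp_sub_one_sub_id_le (x := -(η / 8)) (by
          rw [abs_neg, abs_of_pos (by positivity)]; linarith only [hη1])
        rw [abs_le] at h2
        nlinarith only [h2.2, hη, hη1]
      have h0 : 0 ≤ ‖f x - f y‖ ^ p.toReal := Real.rpow_nonneg (norm_nonneg _) _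
      calc Real.exp (-η) * ‖f x - f y‖ ^ p.toReal
          = Real.exp (-(η / 8)) * (Real.exp (-(7 / 8 * η)) * ‖f x - f y‖ ^ p.toReal) := by
            rw [← mul_assoc, ← Real.exp_add]; congr 2; ring
        _ ≤ (1 - η / 16) * ‖F₁ x - F₁ y‖ ^ p.toReal :=
            mul_le_mul h1 (hF₁ x y).1 (by positivity) (by linarith only [hη1])
        _ ≤ _ := (hF₂ x y).1
    · have h1 : 1 + η / 16 ≤ Real.exp (η / 8) := by
        have := Real.add_one_le_exp (η / 8)
        linarith only [this, hη]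
      have h0 : 0 ≤ ‖f x - f y‖ ^ p.toReal := Real.rpow_nonneg (norm_nonneg _) _
      calc ‖F₂ x - F₂ y‖ ^ p.toReal ≤ (1 + η / 16) * ‖F₁ x - F₁ y‖ ^ p.toReal := (hF₂ x y).2
        _ ≤ Real.exp (η / 8) * (Real.exp (7 / 8 * η) * ‖f x - f y‖ ^ p.toReal) :=
            mul_le_mul h1 (hF₁ x y).2 (Real.rpow_nonneg (norm_nonneg _) _) (Real.exp_pos _).le
        _ = _ := by rw [← mul_assoc, ← Real.exp_add]; congr 2; ring

end Vale.Agent.P249.H445
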