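import Vale.Agent.P249.R2.H445.StepU
import Vale.Agent.P249.H560.Exp
import Vale.Agent.P249.H560.Uniform

/-!
# P249 (helper445): iteration of the steps, all sets
-/

open MeasureTheory
open scoped BigOperators ENNReal

namespace Vale.Agent.P249.H445

/-- Iterating `k` steps with geometrically increasing accuracies. -/
theorem iterateU (p : ℝ≥0∞) [Fact (1 ≤ p)] (hp : p ≠ ∞) {E A : ℝ} (hE : 0 ≤ E) (hA1 : 1 ≤ A)
    (V : Type)
    (H : ∀ δ : ℝ, 0 < δ → δ ≤ 1 → ∀ (N : ℕ) (f : V → PiLp p (fun _ : Fin N => ℝ)), 0 < N →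
      ∃ (d : ℕ) (F : V → PiLp p (fun _ : Fin d => ℝ)), 0 < d ∧
        (d : ℝ) ≤ (N : ℝ) ^ (3 / 4 : ℝ) * (Real.exp (E / δ) * A) ∧
        ∀ x y, (1 - δ) * ‖f x - f y‖ ^ p.toReal ≤ ‖F x - F y‖ ^ p.toReal ∧
          ‖F x - F y‖ ^ p.toReal ≤ (1 + δ) * ‖f x - f y‖ ^ p.toReal) (k : ℕ) :
    ∀ η : ℝ, 0 < η → η ≤ 1 → ∀ (N : ℕ) (f : V → PiLp p (fun _ : Fin N => ℝ)), 0 < N →
      ∃ (d : ℕ) (F : V → PiLp p (fun _ : Fin d => ℝ)), 0 < d ∧
        (d : ℝ) ≤ (N : ℝ) ^ ((3 / 4 : ℝ) ^ k) * (Real.exp (112 * E / η) * A ^ 4) ∧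
        ∀ x y, Real.exp (-η) * ‖f x - f y‖ ^ p.toReal ≤ ‖F x - F y‖ ^ p.toReal ∧
          ‖F x - F y‖ ^ p.toReal ≤ Real.exp η * ‖f x - f y‖ ^ p.toReal := by
  have hP0 := toReal_pos_of_fact (p := p) hp
  have hP1 := one_le_toReal_of_fact (p := p) hp
  have hA4 : 1 ≤ A ^ 4 := one_le_pow₀ hA1
  induction k with
  | zero =>
    intro η hη hη1 N f hN
    refine ⟨N, f, hN, ?_, fun x y => ⟨?_, ?_⟩⟩
    · have h1 : 1 ≤ Real.exp (112 * E / η) := Real.one_le_exp (by positivity)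
      have h2 : (0:ℝ) ≤ N := Nat.cast_nonneg N
      rw [pow_zero, Real.rpow_one]
      exact le_mul_of_one_le_right h2 (one_le_mul_of_one_le_of_one_le h1 hA4)
    · have h1 : Real.exp (-η) ≤ 1 := Real.exp_le_one_iff.2 (by linarith only [hη])
      exact mul_le_of_le_one_left (Real.rpow_nonneg (norm_nonneg _) _) h1
    · have h1 : 1 ≤ Real.exp η := Real.one_le_exp hη.le
      exact le_mul_of_one_le_left (Real.rpow_nonneg (norm_nonneg _) _) h1
  | succ k ih =>
    intro η hη hη1 N f hN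
    obtain ⟨d₁, F₁, hd₁, hd₁N, hF₁⟩ := ih (7 / 8 * η) (by positivity) (by linarith only [hη1, hη])
      N f hN
    obtain ⟨d₂, F₂, hd₂, hd₂N, hF₂⟩ := H (η / 16) (by positivity) (by linarith only [hη1])
      d₁ F₁ hd₁
    refine ⟨d₂, F₂, hd₂, ?_, fun x y => ⟨?_, ?_⟩⟩
    · -- the dimension
      have hN0 : (0:ℝ) ≤ N := Nat.cast_nonneg N
      have hd0 : (0:ℝ) ≤ d₁ := Nat.cast_nonneg d₁
      have hA0 : 0 ≤ A := by linarith only [hA1]
      have h1 : (d₁ : ℝ) ^ (3 / 4 : ℝ) ≤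
          ((N : ℝ) ^ ((3 / 4 : ℝ) ^ k) * (Real.exp (112 * E / (7 / 8 * η)) * A ^ 4)) ^ (3 / 4 : ℝ) :=
        Real.rpow_le_rpow hd0 hd₁N (by norm_num)
      have h2 : ((N : ℝ) ^ ((3 / 4 : ℝ) ^ k) *
          (Real.exp (112 * E / (7 / 8 * η)) * A ^ 4)) ^ (3 / 4 : ℝ) =
          (N : ℝ) ^ ((3 / 4 : ℝ) ^ (k + 1)) * (Real.exp (96 * E / η) * A ^ 3) := by
        rw [Real.mul_rpow (Real.rpow_nonneg hN0 _) (by positivity),
          Real.mul_rpow (Real.exp_pos _).le (by positivity), ← Real.rpow_mul hN0, ← Real.exp_mul,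
          ← Real.rpow_natCast A 4, ← Real.rpow_mul hA0, ← Real.rpow_natCast A 3, pow_succ]
        congr 2
        · congr 1
          field_simp
          ring
        · congr 1
          norm_num
      rw [h2] at h1
      have h3 : Real.exp (96 * E / η) * Real.exp (E / (η / 16)) = Real.exp (112 * E / η) := by
        rw [← Real.exp_add]
        congr 1
        field_simp
        ring
      calc (d₂ : ℝ) ≤ (d₁ : ℝ) ^ (3 / 4 : ℝ) * (Real.exp (E / (η / 16)) * A) := hd₂N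
        _ ≤ ((N : ℝ) ^ ((3 / 4 : ℝ) ^ (k + 1)) * (Real.exp (96 * E / η) * A ^ 3)) *
            (Real.exp (E / (η / 16)) * A) := mul_le_mul_of_nonneg_right h1 (by positivity)
        _ = (N : ℝ) ^ ((3 / 4 : ℝ) ^ (k + 1)) *
            ((Real.exp (96 * E / η) * Real.exp (E / (η / 16))) * A ^ 4) := by ring
        _ = _ := by rw [h3]
    · have h1 : Real.exp (-(η / 8)) ≤ 1 - η / 16 := by
        have h2 := Real.abs_exp_sub_one_sub_id_le (x := -(η / 8)) (by
          rw [abs_neg, abs_of_pos (by positivity)]; linarith only [hη1])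
        rw [abs_le] at h2
        nlinarith only [h2.2, hη, hη1]
      have h0 : 0 ≤ ‖f x - f y‖ ^ p.toReal := Real.rpow_nonneg (norm_nonneg _) _
      calc Real.exp (-η) * ‖f x - f y‖ ^ p.toReal
          = Real.exp (-(η / 8)) * (Real.exp (-(7 / 8 * η)) * ‖f x - f y‖ ^ p.toReal) := by
            rw [← mul_assoc, ← Real.exp_add]; congr 2; ring
        _ ≤ (1 - η / 16) * ‖F₁ x - F₁ y‖ ^ p.toReal :=
            mul_le_mul h1 (hF₁ x y).1 (by positivity) (by linarith only [hη1])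
        _ ≤ _ := (hF₂ x y).1
    · have h1 : 1 + η / 16 ≤ Real.exp (η / 8) := by
        have := Real.add_one_le_exp (η / 8)
        linarith only [this, hη]
      have h0 : 0 ≤ ‖f x - f y‖ ^ p.toReal := Real.rpow_nonneg (norm_nonneg _) _
      calc ‖F₂ x - F₂ y‖ ^ p.toReal ≤ (1 + η / 16) * ‖F₁ x - F₁ y‖ ^ p.toReal := (hF₂ x y).2
        _ ≤ Real.exp (η / 8) * (Real.exp (7 / 8 * η) * ‖f x - f y‖ ^ p.toReal) :=
            mul_le_mul h1 (hF₁ x y).2 (Real.rpow_nonneg (norm_nonneg _) _) (Real.exp_pos _).le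
        _ = _ := by rw [← mul_assoc, ← Real.exp_add]; congr 2; ring

/-- Embedding of all sets with at most `n` points, given kernels with moment sum `K W ^ p`. -/
theorem embedU (hpar : SpecPar) (p : ℝ≥0∞) [Fact (1 ≤ p)] (hp : p ≠ ∞) {K : ℝ} (hK : 1 ≤ K) :
    ∃ C : ℝ, 0 < C ∧ ∀ n : ℕ, 2 ≤ n → ∀ W : ℝ, Real.sqrt (1 + Real.log n) ≤ W →
      (∀ (V : Type) [Fintype V] [Nonempty V] (N : ℕ) (f : V → Fin N → ℝ), Fintype.card V ≤ n →
        HasKernels p.toReal (lpd p.toReal f) (K * W ^ p.toReal)) →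
      ∀ ε : ℝ, 0 < ε → ε ≤ 1 → ∀ (Ω : Type) [MeasurableSpace Ω] (μ : Measure Ω)
        (X : Finset (Lp ℝ p μ)), X.card ≤ n →
        ∃ (d : ℕ) (f : Lp ℝ p μ → PiLp p (fun _ : Fin d => ℝ)),
          (d : ℝ) ≤ Real.exp (C * W / ε) ∧ DistortionAtMost X f (1 + ε) := by
  classical
  have hP0 := toReal_pos_of_fact (p := p) hp
  have hP1 := one_le_toReal_of_fact (p := p) hp
  obtain ⟨C, hC, H⟩ := stepU hpar p hp
  have hC0 : 0 ≤ C := by linarith only [hC]
  set K₁ : ℝ := (16 * K) ^ (1 / p.toReal) with hK₁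
  set K₂ : ℝ := (4 * K) ^ (1 / p.toReal) with hK₂
  have hK₁1 : 1 ≤ K₁ := Real.one_le_rpow (by linarith only [hK]) (by positivity)
  have hK₂1 : 1 ≤ K₂ := Real.one_le_rpow (by linarith only [hK]) (by positivity)
  have hlK₂ := Real.log_nonneg hK₂1
  refine ⟨1 + 896 * C * K₁ + 4 * C * (Real.log K₂ + 3), by positivity, ?_⟩
  intro n hn W hW hker ε hε hε1 Ω _ μ X hX
  have hnr : (1 : ℝ) ≤ n := by exact_mod_cast (by omega : 1 ≤ n)
  have hlog := Real.log_nonneg hnr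
  set l : ℝ := 1 + Real.log n with hl
  have hl1 : 1 ≤ l := by rw [hl]; linarith only [hlog]
  have hW1 : 1 ≤ W := (Real.one_le_sqrt.2 hl1).trans hW
  have hW0 : 0 < W := by linarith only [hW1]
  have hinv : 1 ≤ 1 / ε := by rw [le_div_iff₀ hε]; linarith only [hε1]
  rcases le_or_gt X.card 1 with h1 | h1
  · refine ⟨0, fun _ => 0, ?_, 1, one_pos, fun x hx y hy => ?_⟩
    · rw [Nat.cast_zero]
      exact (Real.exp_pos _).le
    · have hxy : x = y := Finset.card_le_one.1 h1 x hx y hy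
      subst hxy
      simp
  have hWP : 1 ≤ W ^ p.toReal := Real.one_le_rpow hW1 hP0.le
  have hU1 : 1 ≤ K * W ^ p.toReal := one_le_mul_of_one_le_of_one_le hK hWP
  have hU16 : (16 * (K * W ^ p.toReal)) ^ (1 / p.toReal) = K₁ * W := by
    rw [← mul_assoc, Real.mul_rpow (by positivity) (by positivity), ← Real.rpow_mul hW0.le,
      mul_one_div_cancel hP0.ne', Real.rpow_one]
  have hU4 : (4 * (K * W ^ p.toReal)) ^ (1 / p.toReal) = K₂ * W := by
    rw [← mul_assoc, Real.mul_rpow (by positivity) (by positivity), ← Real.rpow_mul hW0.le,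
      mul_one_div_cancel hP0.ne', Real.rpow_one]
  have hne : Nonempty X := by
    have : X.Nonempty := by rw [← Finset.card_pos]; omega
    exact this.to_subtype
  have hcardX : Fintype.card X = X.card := Fintype.card_coe X
  have hm1 : (1 : ℝ) ≤ X.card := by exact_mod_cast h1.le
  have hlm : Real.log (Fintype.card X) ≤ Real.log n := by
    rw [hcardX]
    exact Real.log_le_log (by linarith only [hm1]) (by exact_mod_cast hX)
  have hlm0 : 0 ≤ Real.log (Fintype.card X) := by rw [hcardX]; exact Real.log_nonneg hm1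
  set A : ℝ := (K₂ * W * l) ^ C with hA
  have hbase : 1 ≤ K₂ * W * l :=
    one_le_mul_of_one_le_of_one_le (one_le_mul_of_one_le_of_one_le hK₂1 hW1) hl1
  have hA1 : 1 ≤ A := Real.one_le_rpow hbase hC0
  have hstep : ∀ δ : ℝ, 0 < δ → δ ≤ 1 → ∀ (N : ℕ) (f : X → PiLp p (fun _ : Fin N => ℝ)), 0 < N →
      ∃ (d : ℕ) (F : X → PiLp p (fun _ : Fin d => ℝ)), 0 < d ∧
        (d : ℝ) ≤ (N : ℝ) ^ (3 / 4 : ℝ) * (Real.exp (C * (K₁ * W) / δ) * A) ∧
        ∀ x y, (1 - δ) * ‖f x - f y‖ ^ p.toReal ≤ ‖F x - F y‖ ^ p.toReal ∧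
          ‖F x - F y‖ ^ p.toReal ≤ (1 + δ) * ‖f x - f y‖ ^ p.toReal := by
    intro δ hδ hδ1 N f hN
    obtain ⟨d, F, hd, hdN, hF⟩ := H (K * W ^ p.toReal) hU1 δ hδ hδ1 X N f hN
      (hker X N (fun x i => f x i) (by rw [hcardX]; exact hX))
    refine ⟨d, F, hd, hdN.trans ?_, hF⟩
    rw [hU16, hU4]
    apply mul_le_mul_of_nonneg_left _ (Real.rpow_nonneg (Nat.cast_nonneg N) _)
    apply mul_le_mul_of_nonneg_left _ (Real.exp_pos _).le
    apply Real.rpow_le_rpow (by positivity) _ hC0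
    apply mul_le_mul_of_nonneg_left _ (by positivity)
    linarith only [hlm]
  -- step 0
  set ε₀ : ℝ := ε / 16 with hε₀
  have hε₀0 : 0 < ε₀ := by positivity
  have hε₀1 : ε₀ < 1 := by rw [hε₀]; linarith only [hε1]
  set m : ℕ := ⌈4 * (X.card : ℝ) ^ 2 * Real.log (2 * (X.card : ℝ) ^ 2) / ε₀ ^ 2⌉₊ + 1 with hm
  have hm0 : 0 < m := by rw [hm]; omega
  obtain ⟨f₀, hf₀⟩ := embed_all_pairs hp X hε₀0 hε₀1 m
    (by rw [hm]; push_cast; linarith only [Nat.le_ceil (4 * (X.card : ℝ) ^ 2 *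
      Real.log (2 * (X.card : ℝ) ^ 2) / ε₀ ^ 2)]) hm0
  have hAA : (1 + ε₀) / (1 - ε₀) ≤ Real.exp (4 * ε₀) :=
    one_add_div_one_sub_le hε₀0.le (by rw [hε₀]; linarith only [hε1])
  have hAA1 : 1 ≤ (1 + ε₀) / (1 - ε₀) := by
    rw [one_le_div (by linarith only [hε₀1])]; linarith only [hε₀0]
  obtain ⟨k, hk⟩ : ∃ k : ℕ, (m : ℝ) ^ ((3 / 4 : ℝ) ^ k) ≤ Real.exp 1 := by
    have hm1 : (1 : ℝ) ≤ m := by exact_mod_cast hm0
    have hlm := Real.log_nonneg hm1
    obtain ⟨k, hk⟩ := exists_pow_lt_of_lt_one (show 0 < 1 / (1 + Real.log m) by positivity)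
      (show (3 / 4 : ℝ) < 1 by norm_num)
    refine ⟨k, ?_⟩
    rw [Real.rpow_def_of_pos (by linarith only [hm1])]
    apply Real.exp_le_exp.2
    have h1 : (3 / 4 : ℝ) ^ k * (1 + Real.log m) ≤ 1 := by
      rw [lt_div_iff₀ (by linarith only [hlm])] at hk
      exact hk.le
    have h2 : 0 ≤ (3 / 4 : ℝ) ^ k := by positivity
    nlinarith only [h1, h2]
  obtain ⟨d, F, hd, hdN, hF⟩ := iterateU p hp (E := C * (K₁ * W)) (by positivity) hA1 X hstep k
    (ε / 8) (by positivity) (by linarith only [hε1]) m (fun x : X => f₀ x) hm0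
  refine ⟨d, fun x => if h : x ∈ X then F ⟨x, h⟩ else 0, ?_, ?_⟩
  · have hlogW : Real.log W ≤ W := by
      have := Real.log_le_sub_one_of_pos hW0
      linarith only [this]
    have hlogl : Real.log l ≤ 2 * W := by
      have h1 := Real.log_le_rpow_div (by linarith only [hl1] : 0 ≤ l) (by norm_num : (0:ℝ) < 1 / 2)
      rw [← Real.sqrt_eq_rpow] at h1
      have h2 : Real.sqrt l / (1 / 2) = 2 * Real.sqrt l := by ring
      rw [h2] at h1
      linarith only [h1, hW]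
    have hA4 : A ^ 4 ≤ Real.exp (4 * C * (Real.log K₂ + 3) * W / ε) := by
      have h2 : Real.log (K₂ * W * l) ≤ (Real.log K₂ + 3) * W := by
        rw [Real.log_mul (by positivity) (by positivity), Real.log_mul (by positivity) (by positivity)]
        nlinarith only [hlogW, hlogl, hW1, hlK₂]
      have h3 : A ^ 4 = Real.exp (4 * C * Real.log (K₂ * W * l)) := by
        rw [hA, ← Real.rpow_natCast, ← Real.rpow_mul (by positivity),
          Real.rpow_def_of_pos (by positivity)]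
        congr 1
        push_cast
        ring
      rw [h3]
      apply Real.exp_le_exp.2
      have h4 : 4 * C * Real.log (K₂ * W * l) ≤ 4 * C * ((Real.log K₂ + 3) * W) :=
        mul_le_mul_of_nonneg_left h2 (by positivity)
      have h5 : 0 ≤ 4 * C * (Real.log K₂ + 3) * W := by positivity
      rw [div_eq_mul_one_div]
      have h6 := mul_le_mul_of_nonneg_left hinv h5
      linarith only [h4, h6]
    have h1e : Real.exp 1 ≤ Real.exp (1 * W / ε) := by
      apply Real.exp_le_exp.2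
      rw [div_eq_mul_one_div, one_mul]
      exact one_le_mul_of_one_le_of_one_le hW1 hinv
    calc (d : ℝ) ≤ (m : ℝ) ^ ((3 / 4 : ℝ) ^ k) *
          (Real.exp (112 * (C * (K₁ * W)) / (ε / 8)) * A ^ 4) := hdN
      _ ≤ Real.exp (1 * W / ε) * (Real.exp (896 * C * K₁ * W / ε) *
          Real.exp (4 * C * (Real.log K₂ + 3) * W / ε)) := by
        apply mul_le_mul (hk.trans h1e) _ (by positivity) (Real.exp_pos _).le
        apply mul_le_mul (le_of_eq _) hA4 (by positivity) (Real.exp_pos _).le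
        congr 1
        field_simp
        norm_num
      _ = _ := by
        rw [← Real.exp_add, ← Real.exp_add]
        congr 1
        ring
  · obtain ⟨s, hs0, hs⟩ := hf₀
    refine distortion_comp p hp (A := (1 + ε₀) / (1 - ε₀)) (a := Real.exp (-(ε / 8)))
      (b := Real.exp (ε / 8)) hAA1 (Real.exp_pos _) ?_ ?_ ⟨s, hs0, hs⟩ fun x hx y hy => ?_
    · exact Real.exp_le_exp.2 (by linarith only [hε])
    · have h1 : Real.exp (ε / 8) / Real.exp (-(ε / 8)) = Real.exp (ε / 4) := by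
        rw [← Real.exp_sub]; congr 1; ring
      rw [h1]
      calc (1 + ε₀) / (1 - ε₀) * Real.exp (ε / 4) ≤ Real.exp (4 * ε₀) * Real.exp (ε / 4) :=
            mul_le_mul_of_nonneg_right hAA (Real.exp_pos _).le
        _ = Real.exp (ε / 2) := by rw [← Real.exp_add, hε₀]; congr 1; ring
        _ ≤ 1 + ε := Vale.Agent.P249.H560.exp_half_le hε.le hε1
    · rw [dif_pos hx, dif_pos hy]
      exact hF ⟨x, hx⟩ ⟨y, hy⟩

end Vale.Agent.P249.H445
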