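import Vale.Agent.P249.R2.H445.Spec2

/-!
# P249.AspectRatio (helper445): the grids, with control of the aspect ratio
-/

open MeasureTheory
open scoped ENNReal

namespace Vale.Agent.P249.H445

theorem low_grid (hsep : SpecSep) (p : ℝ≥0∞) [Fact (1 ≤ p)] (hp : p ≠ ∞) (D : ℝ) (hD : 1 ≤ D) :
    ∃ c : ℝ, 0 < c ∧ ∀ k : ℕ, 0 < k →
      ∃ (Ω : Type) (_ : MeasurableSpace Ω) (μ : Measure Ω) (X : Finset (Lp ℝ p μ)),
        X.card ≤ 2 * k ^ k ∧
        (∀ x ∈ X, ∀ y ∈ X, ∀ x' ∈ X, ∀ y' ∈ X, x' ≠ y' →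
          ‖x - y‖ ≤ 2 * (k : ℝ) ^ (3 / 2 : ℝ) * ‖x' - y'‖) ∧
        ∀ (d : ℕ) (f : Lp ℝ p μ → PiLp p (fun _ : Fin d => ℝ)), DistortionAtMost X f D →
          c * (k : ℝ) ^ (p.toReal / 2) ≤ d := by
  classical
  have hp1 : (1 : ℝ≥0∞) ≤ p := Fact.out
  obtain ⟨c, hc, hlow⟩ := grid_lower (p := p) hp hD
  refine ⟨c, hc, fun k hk => ?_⟩
  have hne : Nonempty (Fin k) := ⟨⟨0, hk⟩⟩
  have hnt : Nontrivial (EuclideanSpace ℂ (Fin k)) := inferInstance
  have hk1 : (1 : ℝ) ≤ k := by exact_mod_cast hk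
  have hk0 : (0 : ℝ) < k := by linarith only [hk1]
  obtain ⟨c', hc', J, hJ⟩ := exists_scaled_isometry (H := EuclideanSpace ℂ (Fin k)) p
    (zero_lt_one.trans_le hp1).ne'
  refine ⟨EuclideanSpace ℂ (Fin k), inferInstance, ballMeasure _, (gridSet k k).image J,
    Finset.card_image_le.trans (gridSet_card_le k k), ?_, fun d f hf => ?_⟩
  · intro x hx y hy x' hx' y' hy' hne'
    obtain ⟨a, ha, rfl⟩ := Finset.mem_image.1 hx
    obtain ⟨b, hb, rfl⟩ := Finset.mem_image.1 hy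
    obtain ⟨a', ha', rfl⟩ := Finset.mem_image.1 hx'
    obtain ⟨b', hb', rfl⟩ := Finset.mem_image.1 hy'
    have h1 := (hsep k hk a ha b hb).1
    have h2 := (hsep k hk a' ha' b' hb').2 (fun h => hne' (by rw [h]))
    rw [hJ, hJ]
    have h3 : (k : ℝ) ^ (3 / 2 : ℝ) = Real.sqrt k * k := by
      rw [Real.sqrt_eq_rpow]
      nth_rewrite 3 [← Real.rpow_one (k : ℝ)]
      rw [← Real.rpow_add hk0]
      norm_num
    have h4 : 1 ≤ k * ‖a' - b'‖ := by
      rw [div_le_iff₀ hk0] at h2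
      linarith only [h2]
    have h5 : 0 ≤ Real.sqrt k := Real.sqrt_nonneg _
    rw [h3]
    calc c' * ‖a - b‖ ≤ c' * (2 * Real.sqrt k) := mul_le_mul_of_nonneg_left h1 hc'.le
      _ = 2 * Real.sqrt k * c' * 1 := by ring
      _ ≤ 2 * Real.sqrt k * c' * (k * ‖a' - b'‖) :=
          mul_le_mul_of_nonneg_left h4 (by positivity)
      _ = _ := by ring
  · obtain ⟨s, hs, hsf⟩ := hf
    have hkk : Real.sqrt k ≤ k := by
      rw [Real.sqrt_le_left (by positivity)]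
      nlinarith only [hk1]
    refine hlow k k hk hkk d (fun x => f (J x)) (s * c') (by positivity) fun x hx y hy => ?_
    have h := hsf (J x) (Finset.mem_image_of_mem J hx) (J y) (Finset.mem_image_of_mem J hy)
    rw [hJ] at h
    refine ⟨le_trans (le_of_eq (by ring)) h.1, h.2.trans (le_of_eq (by ring))⟩

end Vale.Agent.P249.H445
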