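import Vale.Agent.P249.R2.H445.Iter
import Vale.Agent.P249.H560.Uniform

/-!
# P249.AspectRatio (helper445): the embedding theorem
-/

open MeasureTheory
open scoped BigOperators ENNReal

namespace Vale.Agent.P249.H445

/-- Sets of aspect ratio at most `Φ`, given one step. -/
theorem embed_of_step (p : ℝ≥0∞) [Fact (1 ≤ p)] (hp : p ≠ ∞) {C : ℝ} (hC : 1 ≤ C)
    (H : StepStatement p C) {n : ℕ} (hn : 2 ≤ n) {Φ : ℝ} (hΦ : 1 ≤ Φ) {ε : ℝ} (hε : 0 < ε)
    (hε1 : ε ≤ 1) (Ω : Type) [MeasurableSpace Ω] (μ : Measure Ω) (X : Finset (Lp ℝ p μ))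
    (hX : X.card = n)
    (hasp : ∀ x ∈ X, ∀ y ∈ X, ∀ x' ∈ X, ∀ y' ∈ X, x' ≠ y' → ‖x - y‖ ≤ Φ * ‖x' - y'‖) :
    ∃ (d : ℕ) (f : Lp ℝ p μ → PiLp p (fun _ : Fin d => ℝ)),
      (d : ℝ) ≤ Real.exp (1000 * C / ε) * (Φ * (1 + Real.log n)) ^ (1000 * C) ∧
        DistortionAtMost X f (1 + ε) := by
  classical
  have hP0 := toReal_pos_of_fact (p := p) hp
  have hP1 := one_le_toReal_of_fact (p := p) hp
  have hnr : (1 : ℝ) ≤ n := by exact_mod_cast (by omega : 1 ≤ n)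
  have hlog := Real.log_nonneg hnr
  -- two different points with minimal distance
  have hoff : X.offDiag.Nonempty := by
    rw [← Finset.card_pos, Finset.offDiag_card, hX]
    have : n * 2 ≤ n * n := Nat.mul_le_mul_left n hn
    omega
  obtain ⟨⟨a, b⟩, hab, habmin⟩ := Finset.exists_min_image X.offDiag
    (fun e => ‖e.1 - e.2‖) hoff
  obtain ⟨haX, hbX, hne⟩ := Finset.mem_offDiag.1 hab
  have hr0 : 0 < ‖a - b‖ := norm_pos_iff.2 (sub_ne_zero.2 hne)
  -- step 0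
  set ε₀ : ℝ := ε / 16 with hε₀
  have hε₀0 : 0 < ε₀ := by positivity
  have hε₀1 : ε₀ < 1 := by rw [hε₀]; linarith only [hε1]
  set m : ℕ := ⌈4 * (X.card : ℝ) ^ 2 * Real.log (2 * (X.card : ℝ) ^ 2) / ε₀ ^ 2⌉₊ + 1 with hm
  have hm0 : 0 < m := by rw [hm]; omega
  obtain ⟨f₀, hf₀⟩ := embed_all_pairs hp X hε₀0 hε₀1 m
    (by rw [hm]; push_cast; linarith only [Nat.le_ceil (4 * (X.card : ℝ) ^ 2 *
      Real.log (2 * (X.card : ℝ) ^ 2) / ε₀ ^ 2)]) hm0
  have hA : (1 + ε₀) / (1 - ε₀) ≤ Real.exp (4 * ε₀) :=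
    one_add_div_one_sub_le hε₀0.le (by rw [hε₀]; linarith only [hε1])
  have hA1 : 1 ≤ (1 + ε₀) / (1 - ε₀) := by
    rw [one_le_div (by linarith only [hε₀1])]; linarith only [hε₀0]
  have hA2 : ((1 + ε₀) / (1 - ε₀)) ^ (1 / p.toReal) ≤ 2 := by
    have h1 : ((1 + ε₀) / (1 - ε₀)) ^ (1 / p.toReal) ≤ ((1 + ε₀) / (1 - ε₀)) ^ (1 : ℝ) :=
      Real.rpow_le_rpow_of_exponent_le hA1 (by rw [div_le_one hP0]; exact hP1)
    rw [Real.rpow_one] at h1
    refine h1.trans ?_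
    rw [div_le_iff₀ (by linarith only [hε₀1])]
    rw [hε₀]
    linarith only [hε1]
  -- the number of steps
  obtain ⟨k, hk⟩ : ∃ k : ℕ, (m : ℝ) ^ ((3 / 4 : ℝ) ^ k) ≤ Real.exp 1 := by
    have hm1 : (1 : ℝ) ≤ m := by exact_mod_cast hm0
    have hlm := Real.log_nonneg hm1
    obtain ⟨k, hk⟩ := exists_pow_lt_of_lt_one (show 0 < 1 / (1 + Real.log m) by positivity)
      (show (3 / 4 : ℝ) < 1 by norm_num)
    refine ⟨k, ?_⟩
    rw [Real.rpow_def_of_pos (by linarith only [hm1])]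
    apply Real.exp_le_exp.2
    have h1 : (3 / 4 : ℝ) ^ k * (1 + Real.log m) ≤ 1 := by
      rw [lt_div_iff₀ (by linarith only [hlm])] at hk
      exact hk.le
    have h2 : 0 ≤ (3 / 4 : ℝ) ^ k := by positivity
    nlinarith only [h1, h2]
  have : Nonempty X := ⟨⟨a, haX⟩⟩
  have hcardX : Fintype.card X = n := by rw [Fintype.card_coe, hX]
  obtain ⟨s, hs0, hs⟩ := hf₀
  obtain ⟨d, F, hd, hdN, hF⟩ := iterate p hp hC H (R := 2 * Φ) (by linarith only [hΦ]) X rfl k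
    (ε / 8) (by positivity) (by linarith only [hε1]) m (fun x : X => f₀ x) hm0 (by
      refine ⟨s * ‖a - b‖, by positivity, fun x y hxy => ⟨?_, ?_⟩⟩
      · have h1 := (hs x x.2 y y.2).1
        have h2 := habmin (x.1, y.1) (Finset.mem_offDiag.2 ⟨x.2, y.2, fun h => hxy (Subtype.ext h)⟩)
        exact (mul_le_mul_of_nonneg_left h2 hs0.le).trans h1
      · have h1 := (hs x x.2 y y.2).2
        have h2 := hasp x x.2 y y.2 a haX b hbX hne
        calc ‖f₀ x - f₀ y‖ ≤ ((1 + ε₀) / (1 - ε₀)) ^ (1 / p.toReal) * s * ‖(x : Lp ℝ p μ) - y‖ := h1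
          _ ≤ 2 * s * (Φ * ‖a - b‖) := by
            apply mul_le_mul (mul_le_mul_of_nonneg_right hA2 hs0.le) h2 (norm_nonneg _)
            positivity
          _ = _ := by ring)
  refine ⟨d, fun x => if h : x ∈ X then F ⟨x, h⟩ else 0, ?_, ?_⟩
  · rw [hcardX] at hdN
    set l : ℝ := 1 + Real.log n with hl
    have hl1 : 1 ≤ l := by rw [hl]; linarith only [hlog]
    have hΦl : 1 ≤ Φ * l := one_le_mul_of_one_le_of_one_le hΦ hl1
    have hΦl0 : 0 ≤ Φ * l := by linarith only [hΦl]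
    have hinv : 1 ≤ 1 / ε := by rw [le_div_iff₀ hε]; linarith only [hε1]
    have h1 : ((9 * (2 * Φ) * l) ^ C) ^ 4 = (18 : ℝ) ^ (4 * C) * (Φ * l) ^ (4 * C) := by
      rw [← Real.rpow_natCast, ← Real.rpow_mul (by positivity), ← Real.mul_rpow (by norm_num) hΦl0]
      congr 1
      · ring
      · push_cast; ring
    have h2 : (18 : ℝ) ^ (4 * C) ≤ Real.exp (12 * C / ε) := by
      have h3 : (18 : ℝ) ≤ Real.exp 3 := by
        have h4 : Real.exp 3 = Real.exp 1 ^ 3 := by rw [← Real.exp_nat_mul]; norm_num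
        have h5 : (2.7 : ℝ) ≤ Real.exp 1 := by linarith only [Real.exp_one_gt_d9]
        rw [h4]
        calc (18 : ℝ) ≤ 2.7 ^ 3 := by norm_num
          _ ≤ _ := pow_le_pow_left₀ (by norm_num) h5 3
      calc (18 : ℝ) ^ (4 * C) ≤ (Real.exp 3) ^ (4 * C) :=
            Real.rpow_le_rpow (by norm_num) h3 (by positivity)
        _ = Real.exp (12 * C) := by rw [← Real.exp_mul]; congr 1; ring
        _ ≤ _ := by
          apply Real.exp_le_exp.2
          rw [div_eq_mul_one_div]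
          exact le_mul_of_one_le_right (by positivity) hinv
    have h3 : Real.exp 1 ≤ Real.exp (C / ε) := by
      apply Real.exp_le_exp.2
      rw [div_eq_mul_one_div]
      exact one_le_mul_of_one_le_of_one_le hC hinv
    calc (d : ℝ) ≤ (m : ℝ) ^ ((3 / 4 : ℝ) ^ k) *
          (Real.exp (112 * C / (ε / 8)) * ((9 * (2 * Φ) * l) ^ C) ^ 4) := hdN
      _ ≤ Real.exp (C / ε) * (Real.exp (112 * C / (ε / 8)) *
          (Real.exp (12 * C / ε) * (Φ * l) ^ (4 * C))) := by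
        rw [h1]
        apply mul_le_mul (hk.trans h3) _ (by positivity) (Real.exp_pos _).le
        apply mul_le_mul_of_nonneg_left _ (Real.exp_pos _).le
        exact mul_le_mul_of_nonneg_right h2 (Real.rpow_nonneg hΦl0 _)
      _ = Real.exp (909 * C / ε) * (Φ * l) ^ (4 * C) := by
        rw [← mul_assoc, ← mul_assoc, ← Real.exp_add, ← Real.exp_add]
        congr 2
        field_simp
        ring
      _ ≤ Real.exp (1000 * C / ε) * (Φ * l) ^ (1000 * C) := by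
        apply mul_le_mul _ _ (Real.rpow_nonneg hΦl0 _) (Real.exp_pos _).le
        · apply Real.exp_le_exp.2
          apply div_le_div_of_nonneg_right _ hε.le
          linarith only [hC]
        · exact Real.rpow_le_rpow_of_exponent_le hΦl (by linarith only [hC])
  · refine distortion_comp p hp (A := (1 + ε₀) / (1 - ε₀)) (a := Real.exp (-(ε / 8)))
      (b := Real.exp (ε / 8)) hA1 (Real.exp_pos _) ?_ ?_ ⟨s, hs0, hs⟩ fun x hx y hy => ?_
    · exact Real.exp_le_exp.2 (by linarith only [hε])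
    · have h1 : Real.exp (ε / 8) / Real.exp (-(ε / 8)) = Real.exp (ε / 4) := by
        rw [← Real.exp_sub]; congr 1; ring
      rw [h1]
      calc (1 + ε₀) / (1 - ε₀) * Real.exp (ε / 4) ≤ Real.exp (4 * ε₀) * Real.exp (ε / 4) :=
            mul_le_mul_of_nonneg_right hA (Real.exp_pos _).le
        _ = Real.exp (ε / 2) := by rw [← Real.exp_add, hε₀]; congr 1; ring
        _ ≤ 1 + ε := Vale.Agent.P249.H560.exp_half_le hε.le hε1
    · rw [dif_pos hx, dif_pos hy]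
      exact hF ⟨x, hx⟩ ⟨y, hy⟩

/-- Sets of at most `n` points and aspect ratio at most `Φ`. -/
theorem aspect (hpar : SpecPar) (p : ℝ≥0∞) [Fact (1 ≤ p)] (hp : p ≠ ∞) :
    ∃ C : ℝ, 0 < C ∧ ∀ n : ℕ, 2 ≤ n → ∀ Φ : ℝ, 1 ≤ Φ → ∀ ε : ℝ, 0 < ε → ε ≤ 1 →
      ∀ (Ω : Type) [MeasurableSpace Ω] (μ : Measure Ω) (X : Finset (Lp ℝ p μ)), X.card ≤ n →
        (∀ x ∈ X, ∀ y ∈ X, ∀ x' ∈ X, ∀ y' ∈ X, x' ≠ y' → ‖x - y‖ ≤ Φ * ‖x' - y'‖) →
        ∃ (d : ℕ) (f : Lp ℝ p μ → PiLp p (fun _ : Fin d => ℝ)),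
          (d : ℝ) ≤ Real.exp (C / ε) * (Φ * (1 + Real.log n)) ^ C ∧
            DistortionAtMost X f (1 + ε) := by
  obtain ⟨C, hC, H⟩ := step hpar p hp
  refine ⟨1000 * C, by linarith only [hC], ?_⟩
  intro n hn Φ hΦ ε hε hε1 Ω _ μ X hX hasp
  have hnr : (1 : ℝ) ≤ n := by exact_mod_cast (by omega : 1 ≤ n)
  have hlog := Real.log_nonneg hnr
  rcases le_or_gt X.card 1 with h1 | h1
  · refine ⟨0, fun _ => 0, ?_, 1, one_pos, fun x hx y hy => ?_⟩
    · rw [Nat.cast_zero]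
      positivity
    · have hxy : x = y := Finset.card_le_one.1 h1 x hx y hy
      subst hxy
      simp
  · obtain ⟨d, f, hd, hf⟩ := embed_of_step p hp hC H h1 hΦ hε hε1 Ω μ X rfl hasp
    refine ⟨d, f, hd.trans ?_, hf⟩
    have hm : (1 : ℝ) ≤ X.card := by exact_mod_cast h1.le
    have hlm := Real.log_nonneg hm
    have h2 : Real.log X.card ≤ Real.log n :=
      Real.log_le_log (by linarith only [hm]) (by exact_mod_cast hX)
    apply mul_le_mul_of_nonneg_left _ (Real.exp_pos _).le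
    apply Real.rpow_le_rpow (by positivity) _ (by positivity)
    apply mul_le_mul_of_nonneg_left _ (by linarith only [hΦ])
    linarith only [h2]

end Vale.Agent.P249.H445
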