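import Mathlib

/-!
# P249.AspectRatio (helper445): parameters of one halving step, literal row
-/

namespace Vale.Agent.P249.H445

/-- the parameters of one halving step for sets of aspect ratio `R` (`l = 1 + log n`) -/
structure Par (P δ n R : ℝ) (N : ℕ) (C : ℝ) where
  L : ℕ
  m : ℕ
  b : ℕ
  T : ℕ
  ℓ : ℕ
  Q : ℝ
  hL : 0 < L
  hm : 0 < m
  hb : 0 < b
  hT : 0 < T
  hℓ : 1 ≤ ℓ
  hQ : 1 < Q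
  he1 : 2 ^ P * (160 / (L : ℝ)) ≤ δ / 6
  he2 : P * (160 / (L : ℝ)) ≤ δ / 6
  hmc : 4 * (N * (4 * (N : ℝ) ^ (-(1 / (2 * P)))) ^ P) * 2 ^ P * Real.log (2 * n ^ 2 + 1) ≤
    (δ / 6) ^ 2 * m
  hbQ : 2 * (R ^ P * (2 ^ P) ^ L * Real.sqrt N) * Q ≤ b
  hℓQ : 2 * Real.exp 1 * (n ^ 2 + 1) * b ≤ Q ^ ℓ
  hsm : (ℓ : ℝ) ^ P * (4 / Q + 2 * Real.log n / T) * 2 ≤ δ / 6
  hd : (m : ℝ) + T * b ≤ (N : ℝ) ^ (3 / 4 : ℝ) *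
    (Real.exp (C / δ) * (R * (1 + Real.log n)) ^ C)

/-- ROW PAR: the parameters exist. -/
def SpecPar : Prop :=
  ∀ P : ℝ, 1 ≤ P → ∃ C : ℝ, 1 ≤ C ∧ ∀ δ : ℝ, 0 < δ → δ ≤ 1 → ∀ n : ℝ, 1 ≤ n → ∀ R : ℝ, 1 ≤ R →
    ∀ N : ℕ, 0 < N → Nonempty (Par P δ n R N C)

end Vale.Agent.P249.H445
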