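import Vale.Agent.P249.Bdl.B1

/-!
# P249.AspectRatio (helper445): literal rows for the lower bound
-/

open MeasureTheory
open scoped ENNReal

namespace Vale.Agent.P249.H445

/-- ROW SEP (separation and diameter of the grid). -/
def SpecSep : Prop :=
  ∀ k : ℕ, 0 < k → ∀ x ∈ gridSet k k, ∀ y ∈ gridSet k k,
    ‖x - y‖ ≤ 2 * Real.sqrt k ∧ (x ≠ y → 1 / (k : ℝ) ≤ ‖x - y‖)

/-- ROW LOW (lower bound with control of the aspect ratio). -/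
def SpecLow : Prop :=
  ∀ (p : ℝ≥0∞) [Fact (1 ≤ p)], p ≠ ∞ → ∀ D : ℝ, 1 ≤ D → ∃ c : ℝ, 0 < c ∧ ∀ n : ℕ, 3 ≤ n →
    ∃ (Ω : Type) (_ : MeasurableSpace Ω) (μ : Measure Ω) (X : Finset (Lp ℝ p μ)),
      2 ≤ X.card ∧ X.card ≤ n ∧
      (∀ x ∈ X, ∀ y ∈ X, ∀ x' ∈ X, ∀ y' ∈ X, x' ≠ y' →
        ‖x - y‖ ≤ 2 * (1 + Real.log n) ^ 2 * ‖x' - y'‖) ∧
      ∀ (d : ℕ) (f : Lp ℝ p μ → PiLp p (fun _ : Fin d => ℝ)), DistortionAtMost X f D →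
        c * (Real.log n / Real.log (Real.log n)) ^ (p.toReal / 2) ≤ d

end Vale.Agent.P249.H445
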