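import Vale.Agent.P249.Bdl.B1

/-!
# P249.AspectRatio (helper445): the near-isometric splitting by truncation around a centre
-/

open scoped BigOperators

namespace Vale.Agent.P249.H445

/-- truncation at level `t` -/
noncomputable def clp (t a : ℝ) : ℝ := max (-t) (min t a)

theorem abs_clp_le {t : ℝ} (ht : 0 ≤ t) (a : ℝ) : |clp t a| ≤ t := by
  unfold clp
  rw [abs_le]
  exact ⟨le_max_left _ _, max_le (by linarith) (min_le_left _ _)⟩

theorem clp_eq {t a : ℝ} (h : |a| ≤ t) : clp t a = a := by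
  unfold clp
  rw [abs_le] at h
  rw [min_eq_right h.2, max_eq_right h.1]

theorem abs_clp_sub_le (t a b : ℝ) : |clp t a - clp t b| ≤ |a - b| := by
  unfold clp
  have h1 : |max (-t) (min t a) - max (-t) (min t b)| ≤ |min t a - min t b| := by
    have := abs_max_sub_max_le_abs (min t a) (min t b) (-t)
    rwa [max_comm (min t a), max_comm (min t b)] at this
  have h2 : |min t a - min t b| ≤ |a - b| := by
    have := abs_min_sub_min_le_max t a t b
    simp only [sub_self, abs_zero] at this
    exact this.trans (max_le (abs_nonneg _) le_rfl)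
  exact h1.trans h2

/-- The geometric decay of the truncations after the first bad level. -/
theorem clp_decay {t a b : ℝ} (ht : 0 < t) (h : ¬ (|a| ≤ t ∧ |b| ≤ t)) (j : ℕ) :
    |clp (t / 2 ^ j) a - clp (t / 2 ^ j) b| ≤ 4 * |a - b| / 2 ^ j := by
  have h2 : (0 : ℝ) < 2 ^ j := by positivity
  rcases le_or_gt (t / 2) |a - b| with h1 | h1
  · have h3 := abs_clp_le (by positivity : 0 ≤ t / 2 ^ j) a
    have h4 := abs_clp_le (by positivity : 0 ≤ t / 2 ^ j) b
    have h6 : |clp (t / 2 ^ j) a - clp (t / 2 ^ j) b| ≤ 2 * t / 2 ^ j := by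
      have : 2 * t / 2 ^ j = t / 2 ^ j + t / 2 ^ j := by ring
      rw [this]
      exact (abs_sub _ _).trans (add_le_add h3 h4)
    exact h6.trans (div_le_div_of_nonneg_right (by linarith) h2.le)
  · rcases Nat.eq_zero_or_pos j with hj | hj
    · subst hj
      simp only [pow_zero, div_one]
      refine (abs_clp_sub_le _ _ _).trans ?_
      have := abs_nonneg (a - b)
      linarith
    · -- both are beyond `t / 2` with the same sign
      have hpow : (2 : ℝ) ≤ 2 ^ j := by
        calc (2 : ℝ) = 2 ^ 1 := by norm_num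
          _ ≤ 2 ^ j := pow_le_pow_right₀ (by norm_num) hj
      have hs : t / 2 ^ j ≤ t / 2 := div_le_div_of_nonneg_left ht.le (by norm_num) hpow
      have hzero : clp (t / 2 ^ j) a = clp (t / 2 ^ j) b := by
        rw [abs_lt] at h1
        have hs0 : 0 < t / 2 ^ j := by positivity
        have hcase : (t / 2 < a ∧ t / 2 < b) ∨ (a < -(t / 2) ∧ b < -(t / 2)) := by
          by_contra hcon
          apply h
          rw [abs_le, abs_le]
          rw [not_or, not_and_or, not_and_or] at hcon
          obtain ⟨hc1, hc2⟩ := hcon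
          rcases hc1 with hc1 | hc1 <;> rcases hc2 with hc2 | hc2 <;>
            constructor <;> constructor <;> linarith
        unfold clp
        rcases hcase with ⟨ha, hb⟩ | ⟨ha, hb⟩
        · rw [min_eq_left (by linarith), min_eq_left (by linarith)]
        · rw [min_eq_right (by linarith), min_eq_right (by linarith), max_eq_left (by linarith),
            max_eq_left (by linarith)]
      rw [hzero, sub_self, abs_zero]
      positivity

/-- The splitting of one coordinate. -/
theorem coord_clamp {P : ℝ} (hP : 1 ≤ P) {L : ℕ} (hL : 0 < L) {t : ℝ} (ht : 0 < t) {V : Type*}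
    (u : V → ℝ) :
    ∃ h g : V → ℝ, (∀ x y, |h x - h y| ≤ 2 * t) ∧
      (∀ x, (∀ l < L, |u x| ≤ t / 2 ^ l) → g x = 0) ∧
      ∀ x y, ∃ s : ℝ, |(h x - h y) - prA P s * (u x - u y)| ≤ 80 / L * |u x - u y| ∧
        |(g x - g y) - prB P s * (u x - u y)| ≤ 80 / L * |u x - u y| := by
  classical
  have hL' : (0:ℝ) < L := by exact_mod_cast hL
  have hP0 : 0 < P := by linarith only [hP]
  set H : ℕ → V → ℝ := fun l x => clp (t / 2 ^ l) (u x) with hHdef
  refine ⟨fun x => ∑ l ∈ Finset.Ico 0 L, wA P L l * H l x,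
    fun x => ∑ l ∈ Finset.Ico 0 L, wB P L l * (u x - H l x), ?_, ?_, ?_⟩
  · intro x y
    rw [← Finset.sum_sub_distrib]
    calc |∑ l ∈ Finset.Ico 0 L, (wA P L l * H l x - wA P L l * H l y)|
        ≤ ∑ l ∈ Finset.Ico 0 L, |wA P L l * H l x - wA P L l * H l y| :=
          Finset.abs_sum_le_sum_abs _ _
      _ ≤ ∑ l ∈ Finset.Ico 0 L, wA P L l * (2 * t) := by
          refine Finset.sum_le_sum fun l hl => ?_
          have hl' : l < L := (Finset.mem_Ico.1 hl).2
          rw [← mul_sub, abs_mul, abs_of_nonneg (wA_nonneg hP0 hL hl')]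
          apply mul_le_mul_of_nonneg_left _ (wA_nonneg hP0 hL hl')
          have h1 := abs_clp_le (by positivity : 0 ≤ t / 2 ^ l) (u x)
          have h2 := abs_clp_le (by positivity : 0 ≤ t / 2 ^ l) (u y)
          have h3 : t / 2 ^ l ≤ t := div_le_self ht.le (one_le_pow₀ (by norm_num))
          refine (abs_sub _ _).trans ?_
          simp only [hHdef]
          linarith
      _ = 2 * t := by
          rw [← Finset.sum_mul, sum_wA, div_self hL'.ne', prA_one P hP0, one_mul]
  · intro x hx
    apply Finset.sum_eq_zero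
    intro l hl
    simp only [hHdef]
    rw [clp_eq (hx l (Finset.mem_Ico.1 hl).2), sub_self, mul_zero]
  · intro x y
    -- the first bad level
    obtain ⟨m, hmL, hm1, hm2⟩ : ∃ m ≤ L, (m < L → ¬ (|u x| ≤ t / 2 ^ m ∧ |u y| ≤ t / 2 ^ m)) ∧
        ∀ l < m, |u x| ≤ t / 2 ^ l ∧ |u y| ≤ t / 2 ^ l := by
      by_cases hex : ∃ m, m < L ∧ ¬ (|u x| ≤ t / 2 ^ m ∧ |u y| ≤ t / 2 ^ m)
      · refine ⟨Nat.find hex, (Nat.find_spec hex).1.le, fun _ => (Nat.find_spec hex).2, ?_⟩
        intro l hl
        have h1 := Nat.find_min hex hl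
        by_contra h2
        exact h1 ⟨lt_trans hl (Nat.find_spec hex).1, h2⟩
      · push Not at hex
        exact ⟨L, le_rfl, fun h => (lt_irrefl _ h).elim, fun l hl => hex l hl⟩
    have hdec : ∀ l ∈ Finset.Ico m L, |H l x - H l y| ≤ 8 * 2 ^ m * |u x - u y| * (1 / 2 ^ (l + 1)) := by
      intro l hl
      obtain ⟨hl1, hl2⟩ := Finset.mem_Ico.1 hl
      have h1 := clp_decay (by positivity : 0 < t / 2 ^ m) (hm1 (lt_of_le_of_lt hl1 hl2)) (l - m)
      have h2 : t / 2 ^ m / 2 ^ (l - m) = t / 2 ^ l := by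
        rw [div_div, ← pow_add]
        congr 2
        omega
      rw [h2] at h1
      refine h1.trans (le_of_eq ?_)
      have h3 : (2 : ℝ) ^ (l + 1) = 2 * 2 ^ (l - m) * 2 ^ m := by
        rw [mul_assoc, ← pow_add, Nat.sub_add_cancel hl1, pow_succ]; ring
      rw [h3]
      field_simp
      ring
    have hgeom : ∑ l ∈ Finset.Ico m L, 10 / L * |H l x - H l y| ≤ 80 / L * |u x - u y| := by
      calc ∑ l ∈ Finset.Ico m L, 10 / L * |H l x - H l y|
          ≤ ∑ l ∈ Finset.Ico m L, 10 / L * (8 * 2 ^ m * |u x - u y| * (1 / 2 ^ (l + 1))) :=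
            Finset.sum_le_sum fun l hl => mul_le_mul_of_nonneg_left (hdec l hl) (by positivity)
        _ = (80 / L * |u x - u y| * 2 ^ m) * ∑ l ∈ Finset.Ico m L, ((1:ℝ) / 2 ^ (l + 1)) := by
            rw [Finset.mul_sum]
            refine Finset.sum_congr rfl fun l _ => ?_
            ring
        _ ≤ (80 / L * |u x - u y| * 2 ^ m) * (1 / 2 ^ m) :=
            mul_le_mul_of_nonneg_left (sum_Ico_half hmL) (by positivity)
        _ = _ := by field_simp
    refine ⟨(m : ℝ) / L, ?_, ?_⟩
    · have h1 : (∑ l ∈ Finset.Ico 0 L, wA P L l * H l x - ∑ l ∈ Finset.Ico 0 L, wA P L l * H l y)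
          - prA P (m / L) * (u x - u y) = ∑ l ∈ Finset.Ico m L, wA P L l * (H l x - H l y) := by
        rw [← Finset.sum_sub_distrib, ← sum_wA m, Finset.sum_mul,
          ← Finset.sum_Ico_consecutive _ (Nat.zero_le m) hmL]
        have h2 : ∑ l ∈ Finset.Ico 0 m, (wA P L l * H l x - wA P L l * H l y) =
            ∑ l ∈ Finset.Ico 0 m, wA P L l * (u x - u y) := by
          refine Finset.sum_congr rfl fun l hl => ?_
          obtain ⟨h3, h4⟩ := hm2 l (Finset.mem_Ico.1 hl).2
          simp only [hHdef]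
          rw [clp_eq h3, clp_eq h4]; ring
        rw [h2, add_sub_cancel_left]
        exact Finset.sum_congr rfl fun l _ => by ring
      rw [h1]
      refine le_trans ?_ hgeom
      refine (Finset.abs_sum_le_sum_abs _ _).trans (Finset.sum_le_sum fun l _ => ?_)
      rw [abs_mul]
      exact mul_le_mul_of_nonneg_right (abs_wA_le hP hL l) (abs_nonneg _)
    · have h1 : (∑ l ∈ Finset.Ico 0 L, wB P L l * (u x - H l x) -
            ∑ l ∈ Finset.Ico 0 L, wB P L l * (u y - H l y))
          - prB P (m / L) * (u x - u y) = ∑ l ∈ Finset.Ico m L, - (wB P L l * (H l x - H l y)) := by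
        rw [← Finset.sum_sub_distrib, ← sum_wB hL hmL, Finset.sum_mul,
          ← Finset.sum_Ico_consecutive _ (Nat.zero_le m) hmL]
        have h2 : ∑ l ∈ Finset.Ico 0 m, (wB P L l * (u x - H l x) - wB P L l * (u y - H l y)) = 0 := by
          refine Finset.sum_eq_zero fun l hl => ?_
          obtain ⟨h3, h4⟩ := hm2 l (Finset.mem_Ico.1 hl).2
          simp only [hHdef]
          rw [clp_eq h3, clp_eq h4]; ring
        rw [h2, zero_add, ← Finset.sum_sub_distrib]
        exact Finset.sum_congr rfl fun l _ => by ring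
      rw [h1]
      refine le_trans ?_ hgeom
      refine (Finset.abs_sum_le_sum_abs _ _).trans (Finset.sum_le_sum fun l _ => ?_)
      rw [abs_neg, abs_mul]
      exact mul_le_mul_of_nonneg_right (abs_wB_le hP hL l) (abs_nonneg _)

/-- The near-isometric splitting of a map whose distances lie in `[s, s R]`. -/
theorem clamp_split (P : ℝ) (hP : 1 ≤ P) {V : Type*} [Fintype V] [Nonempty V] {N : ℕ}
    (f : V → Fin N → ℝ) {s R : ℝ} (hs : 0 < s) (hR : 0 ≤ R)
    (hmin : ∀ x y, x ≠ y → s ≤ lpd P f x y)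
    (hmax : ∀ x y, lpd P f x y ≤ s * R) (τ : ℝ) (hτ : 0 < τ) (L : ℕ) (hL : 0 < L) :
    ∃ h g : V → Fin N → ℝ,
      (∀ x y, |(lpd P h x y ^ P + lpd P g x y ^ P) ^ (1 / P) - lpd P f x y| ≤
        160 / L * lpd P f x y) ∧
      (∀ x y i, |h x i - h y i| ≤ 4 * τ * lpd P f x y) ∧
      ∀ x, ((Finset.univ.filter (fun i => g x i ≠ 0)).card : ℝ) * τ ^ P ≤
        R ^ P * (2 ^ P) ^ L := by
  classical
  have hP0 : 0 < P := by linarith only [hP]
  have hL' : (0:ℝ) < L := by exact_mod_cast hL
  obtain ⟨z⟩ := (inferInstance : Nonempty V)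
  have ht : 0 < 2 * τ * s := by positivity
  have hcoord := fun i : Fin N => coord_clamp hP hL ht (fun x => f x i - f z i)
  choose hh gg hflat hsparse hpair using hcoord
  have hmin' : ∀ x y, x ≠ y → ∀ i, |hh i x - hh i y| ≤ 4 * τ * lpd P f x y := by
    intro x y hxy i
    refine (hflat i x y).trans ?_
    have h1 := mul_le_mul_of_nonneg_left (hmin x y hxy) (by positivity : 0 ≤ 4 * τ)
    linarith only [h1]
  refine ⟨fun x i => hh i x, fun x i => gg i x, ?_, fun x y i => ?_, ?_⟩
  · intro x y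
    have hp := fun i => hpair i x y
    choose σ hm2 hm3 using hp
    simp only [sub_sub_sub_cancel_right] at hm2 hm3
    have hρ := lpd_nonneg f x y (P := P)
    have hB : 2 * ∑ i, (80 / L * |f x i - f y i|) ^ P ≤ (160 / L * lpd P f x y) ^ P := by
      have h1 : ∀ i, (80 / L * |f x i - f y i|) ^ P = (80 / (L : ℝ)) ^ P * |f x i - f y i| ^ P :=
        fun i => Real.mul_rpow (by positivity) (abs_nonneg _)
      rw [Finset.sum_congr rfl fun i _ => h1 i, ← Finset.mul_sum, ← lpd_rpow f hP0,
        Real.mul_rpow (by positivity) hρ]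
      have h2 : (160 / (L : ℝ)) ^ P = 2 ^ P * (80 / (L : ℝ)) ^ P := by
        rw [← Real.mul_rpow (by norm_num) (by positivity)]
        congr 1
        ring
      rw [h2]
      have h3 : (2 : ℝ) ≤ 2 ^ P := by
        nth_rewrite 1 [← Real.rpow_one 2]
        exact Real.rpow_le_rpow_of_exponent_le (by norm_num) hP
      have h4 : 0 ≤ (80 / (L : ℝ)) ^ P * lpd P f x y ^ P :=
        mul_nonneg (Real.rpow_nonneg (by positivity) _) (Real.rpow_nonneg hρ _)
      calc 2 * ((80 / (L : ℝ)) ^ P * lpd P f x y ^ P)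
          ≤ 2 ^ P * ((80 / (L : ℝ)) ^ P * lpd P f x y ^ P) := mul_le_mul_of_nonneg_right h3 h4
        _ = _ := by ring
    have h3 := combine_coords hP f (fun x i => hh i x) (fun x i => gg i x) x y
      σ (fun i => 80 / L * |f x i - f y i|) hm2 hm3 _ hB
    refine h3.trans (le_of_eq ?_)
    rw [← Real.rpow_mul (by positivity), mul_one_div_cancel hP0.ne', Real.rpow_one]
  · by_cases hxy : x = y
    · subst hxy
      simp only [sub_self, abs_zero, lpd_self f hP0, mul_zero, le_refl]
    · exact hmin' x y hxy i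
  · intro x
    have hτL : (0:ℝ) < τ * s / 2 ^ L := by positivity
    have h1 : ∀ i ∈ Finset.univ.filter (fun i => gg i x ≠ 0),
        (τ * s / 2 ^ L) ^ P ≤ |f x i - f z i| ^ P := by
      intro i hi
      have hi' : gg i x ≠ 0 := by simpa only [ne_eq, Finset.mem_filter, Finset.mem_univ,
                                    true_and] using hi
      have h2 : ∃ l < L, ¬ |f x i - f z i| ≤ 2 * τ * s / 2 ^ l := by
        by_contra hcon
        push Not at hcon
        exact hi' (hsparse i x hcon)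
      obtain ⟨l, hl, hng⟩ := h2
      rw [not_le] at hng
      apply Real.rpow_le_rpow hτL.le _ hP0.le
      refine le_trans ?_ hng.le
      have h3 : (2:ℝ) ^ l ≤ 2 ^ L := pow_le_pow_right₀ (by norm_num) hl.le
      have h4 : τ * s / 2 ^ L ≤ τ * s / 2 ^ l :=
        div_le_div_of_nonneg_left (by positivity) (by positivity) h3
      have h5 : 0 < τ * s / 2 ^ l := by positivity
      have h6 : 2 * τ * s / 2 ^ l = 2 * (τ * s / 2 ^ l) := by ring
      rw [h6]
      linarith only [h4, h5]
    have h2 : ((Finset.univ.filter (fun i => gg i x ≠ 0)).card : ℝ) * (τ * s / 2 ^ L) ^ P ≤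
        (s * R) ^ P := by
      calc ((Finset.univ.filter (fun i => gg i x ≠ 0)).card : ℝ) * (τ * s / 2 ^ L) ^ P
          = ∑ i ∈ Finset.univ.filter (fun i => gg i x ≠ 0), (τ * s / 2 ^ L) ^ P := by
            rw [Finset.sum_const, nsmul_eq_mul]
        _ ≤ ∑ i ∈ Finset.univ.filter (fun i => gg i x ≠ 0), |f x i - f z i| ^ P :=
            Finset.sum_le_sum h1
        _ ≤ ∑ i, |f x i - f z i| ^ P :=
            Finset.sum_le_sum_of_subset_of_nonneg (Finset.subset_univ _)
              fun i _ _ => Real.rpow_nonneg (abs_nonneg _) _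
        _ = lpd P f x z ^ P := (lpd_rpow f hP0 x z).symm
        _ ≤ (s * R) ^ P := Real.rpow_le_rpow (lpd_nonneg f x z) (hmax x z) hP0.le
    have hsP : 0 < s ^ P := Real.rpow_pos_of_pos hs _
    have h2L : (2:ℝ) ^ L = 2 ^ L := rfl
    rw [Real.div_rpow (by positivity) (by positivity), Real.mul_rpow hτ.le hs.le,
      Real.mul_rpow hs.le hR, ← Real.rpow_pow_comm (by norm_num : (0:ℝ) ≤ 2) P L,
      ← mul_div_assoc, div_le_iff₀ (by positivity)] at h2
    have h3 : s ^ P * (((Finset.univ.filter (fun i => gg i x ≠ 0)).card : ℝ) * τ ^ P) ≤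
        s ^ P * (R ^ P * (2 ^ P) ^ L) := by linarith only [h2]
    exact le_of_mul_le_mul_left h3 hsP

end Vale.Agent.P249.H445
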