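import Vale.Agent.P249.R2.H445.Step

/-!
# P249 (helper445): one halving step from kernels with the moment sum `U`
-/

open scoped BigOperators ENNReal

namespace Vale.Agent.P249.H445

/-- One step: from dimension `N` to `N ^ (3/4)` up to a factor which does not depend on `N`. -/
theorem stepU (hpar : SpecPar) (p : ℝ≥0∞) [Fact (1 ≤ p)] (hp : p ≠ ∞) :
    ∃ C : ℝ, 1 ≤ C ∧ ∀ U : ℝ, 1 ≤ U → ∀ δ : ℝ, 0 < δ → δ ≤ 1 → ∀ (V : Type) [Fintype V]
      [Nonempty V] (N : ℕ) (f : V → PiLp p (fun _ : Fin N => ℝ)), 0 < N →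
      HasKernels p.toReal (lpd p.toReal (fun x i => f x i)) U →
      ∃ (d : ℕ) (F : V → PiLp p (fun _ : Fin d => ℝ)), 0 < d ∧
        (d : ℝ) ≤ (N : ℝ) ^ (3 / 4 : ℝ) *
          (Real.exp (C * (16 * U) ^ (1 / p.toReal) / δ) *
            ((4 * U) ^ (1 / p.toReal) * (1 + Real.log (Fintype.card V))) ^ C) ∧
        ∀ x y, (1 - δ) * ‖f x - f y‖ ^ p.toReal ≤ ‖F x - F y‖ ^ p.toReal ∧
          ‖F x - F y‖ ^ p.toReal ≤ (1 + δ) * ‖f x - f y‖ ^ p.toReal := by
  have hP0 := toReal_pos_of_fact (p := p) hp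
  have hP1 := one_le_toReal_of_fact (p := p) hp
  obtain ⟨C, hC1, hC⟩ := hpar p.toReal hP1
  refine ⟨C, hC1, ?_⟩
  intro M hM δ hδ hδ1 V _ _ N f hN hK
  have hcard : (1 : ℝ) ≤ Fintype.card V := by exact_mod_cast Fintype.card_pos
  have hW1 : 1 ≤ (16 * M) ^ (1 / p.toReal) := Real.one_le_rpow (by linarith only [hM]) (by positivity)
  have hR : 1 ≤ (4 * M) ^ (1 / p.toReal) := Real.one_le_rpow (by linarith only [hM]) (by positivity)
  set W : ℝ := (16 * M) ^ (1 / p.toReal) with hW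
  set R : ℝ := (4 * M) ^ (1 / p.toReal) with hRdef
  have hW0 : 0 < W := by linarith only [hW1]
  have hδ'le : δ / W ≤ δ := div_le_self hδ.le hW1
  have hδ'0 : 0 < δ / W := by positivity
  obtain ⟨par⟩ := hC (δ / W) hδ'0 (by linarith only [hδ'le, hδ1]) (Fintype.card V) hcard R hR N hN
  have hRP : R ^ p.toReal = 4 * M := by
    rw [hRdef, ← Real.rpow_mul (by linarith only [hM]), one_div_mul_cancel hP0.ne', Real.rpow_one]
  have hNr : (0:ℝ) < N := by exact_mod_cast hN
  have hτ : 0 < (N : ℝ) ^ (-(1 / (2 * p.toReal))) := Real.rpow_pos_of_pos hNr _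
  have hρ : ∀ x y, lpd p.toReal (fun x i => f x i) x y = ‖f x - f y‖ := fun x y => by
    rw [lpd_eq_norm hp]
  obtain ⟨h, g, hhg, hh, hg⟩ := near_split p.toReal hP1 (fun x i => f x i) M hK
    ((N : ℝ) ^ (-(1 / (2 * p.toReal)))) hτ par.L par.hL
  rw [← hW] at hhg
  set e := 80 / (par.L : ℝ) * W with he
  have hLpos : (0 : ℝ) < par.L := by exact_mod_cast par.hL
  have he0 : 0 ≤ e := by rw [he]; positivity
  have he1 : 2 ^ p.toReal * e ≤ δ / 6 := by
    have h1 := mul_le_mul_of_nonneg_right par.he1 hW0.le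
    have h2 : δ / W / 6 * W = δ / 6 := by field_simp
    rw [h2] at h1
    have h3 : 0 ≤ 2 ^ p.toReal * (80 / (par.L : ℝ) * W) := by positivity
    have h4 : 2 ^ p.toReal * (160 / (par.L : ℝ)) * W = 2 * (2 ^ p.toReal * (80 / (par.L : ℝ) * W)) := by
      ring
    rw [h4] at h1
    rw [he]
    linarith only [h1, h3]
  have he2 : p.toReal * e ≤ δ / 6 := by
    have h1 := mul_le_mul_of_nonneg_right par.he2 hW0.le
    have h2 : δ / W / 6 * W = δ / 6 := by field_simp
    rw [h2] at h1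
    have h3 : 0 ≤ p.toReal * (80 / (par.L : ℝ) * W) := by positivity
    have h4 : p.toReal * (160 / (par.L : ℝ)) * W = 2 * (p.toReal * (80 / (par.L : ℝ) * W)) := by
      ring
    rw [h4] at h1
    rw [he]
    linarith only [h1, h3]
  have heone : e ≤ 1 := by
    have h1 : 1 * e ≤ p.toReal * e := mul_le_mul_of_nonneg_right hP1 he0
    linarith only [hδ1, he2, h1]
  -- the sum of the two parts
  have hsum : ∀ x y, |(lpd p.toReal h x y ^ p.toReal + lpd p.toReal g x y ^ p.toReal) -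
      ‖f x - f y‖ ^ p.toReal| ≤ δ / 6 * ‖f x - f y‖ ^ p.toReal := by
    intro x y
    have hs0 : 0 ≤ lpd p.toReal h x y ^ p.toReal + lpd p.toReal g x y ^ p.toReal :=
      add_nonneg (Real.rpow_nonneg (lpd_nonneg _ _ _) _) (Real.rpow_nonneg (lpd_nonneg _ _ _) _)
    have h1 := near_pow hP1 (Real.rpow_nonneg hs0 (1 / p.toReal))
      (lpd_nonneg (P := p.toReal) (fun x i => f x i) x y)
      he0 heone (hhg x y) he1 he2
    rw [← Real.rpow_mul hs0, one_div, inv_mul_cancel₀ hP0.ne', Real.rpow_one, hρ] at h1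
    exact h1
  -- flat part
  set U : V → PiLp p (fun _ : Fin N => ℝ) := fun x => WithLp.toLp p (h x) with hUdef
  have hUn : ∀ x y, lpd p.toReal h x y = ‖U x - U y‖ := fun x y => lpd_eq_norm hp h x y
  set Gv : V → PiLp p (fun _ : Fin N => ℝ) := fun x => WithLp.toLp p (g x) with hGdef
  have hGn : ∀ x y, lpd p.toReal g x y = ‖Gv x - Gv y‖ := fun x y => lpd_eq_norm hp g x y
  have hbound : ∀ x y, ‖U x - U y‖ ^ p.toReal + ‖Gv x - Gv y‖ ^ p.toReal ≤
      2 * ‖f x - f y‖ ^ p.toReal := by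
    intro x y
    have h1 := (abs_le.1 (hsum x y)).2
    rw [hUn, hGn] at h1
    have h2 : 0 ≤ ‖f x - f y‖ ^ p.toReal := Real.rpow_nonneg (norm_nonneg _) _
    nlinarith only [hδ1, h1, h2]
  obtain ⟨W, -, hW⟩ := sample_map hp hN par.hm U (fun x y => ‖f x - f y‖)
    (fun x y => norm_nonneg _) (4 * (N : ℝ) ^ (-(1 / (2 * p.toReal)))) (by positivity)
    (by
      intro x y i
      have h1 := hh x y i
      rw [hρ] at h1
      exact h1)
    2 (δ / 6) (by norm_num)
    (by
      intro x y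
      have h1 := hbound x y
      have h2 : 0 ≤ ‖Gv x - Gv y‖ ^ p.toReal := Real.rpow_nonneg (norm_nonneg _) _
      have h3 : ‖U x - U y‖ ^ p.toReal ≤ (2 * ‖f x - f y‖) ^ p.toReal := by
        rw [Real.mul_rpow (by norm_num) (norm_nonneg _)]
        have h4 : (2:ℝ) ≤ 2 ^ p.toReal := by
          nth_rewrite 1 [← Real.rpow_one 2]
          exact Real.rpow_le_rpow_of_exponent_le (by norm_num) hP1
        have h5 : 0 ≤ ‖f x - f y‖ ^ p.toReal := Real.rpow_nonneg (norm_nonneg _) _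
        nlinarith
      exact (Real.rpow_le_rpow_iff (norm_nonneg _) (by positivity) hP0).1 h3)
    (by linarith only [hδ])
    (by
      have h1 : (1:ℝ) ≤ 2 ^ p.toReal := Real.one_le_rpow (by norm_num) hP0.le
      linarith only [hδ1, h1])
    (by
      refine par.hmc.trans ?_
      apply mul_le_mul_of_nonneg_right _ (Nat.cast_nonneg _)
      exact pow_le_pow_left₀ (by positivity) (by linarith only [hδ'le]) 2)
  -- sparse part
  obtain ⟨H, hH⟩ := near_hash hp par.hb par.hT Gv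
    (R ^ p.toReal * (2 ^ p.toReal) ^ par.L * Real.sqrt N) par.Q
    (by
      intro x
      have h1 := hg x
      rw [← hRP] at h1
      rw [← Real.rpow_mul hNr.le, show -(1 / (2 * p.toReal)) * p.toReal = -(1 / 2 : ℝ) by
        field_simp] at h1
      have h2 : (N : ℝ) ^ (-(1 / 2 : ℝ)) * Real.sqrt N = 1 := by
        rw [Real.sqrt_eq_rpow, ← Real.rpow_add hNr]
        norm_num
      have h3 := mul_le_mul_of_nonneg_right h1 (Real.sqrt_nonneg N)
      rw [mul_assoc, h2, mul_one] at h3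
      exact h3)
    par.hQ par.hbQ par.ℓ par.hℓ par.hℓQ
  refine ⟨par.m + par.T * par.b, fun x => joinL (W x) (H x), Nat.add_pos_left par.hm _, ?_, ?_⟩
  · push_cast
    refine par.hd.trans (le_of_eq ?_)
    congr 3
    field_simp
  · intro x y
    simp only []
    rw [norm_joinL_sub_rpow hp]
    have h0 : 0 ≤ ‖f x - f y‖ ^ p.toReal := Real.rpow_nonneg (norm_nonneg _) _
    have h1 := hsum x y
    rw [hUn, hGn] at h1
    have h2 := hW x y
    have h3 := hH x y
    have h4 := hbound x y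
    have h5 : 0 ≤ ‖U x - U y‖ ^ p.toReal := Real.rpow_nonneg (norm_nonneg _) _
    have h6 : 0 ≤ ‖Gv x - Gv y‖ ^ p.toReal := Real.rpow_nonneg (norm_nonneg _) _
    have hlog := Real.log_nonneg hcard
    have hQ0 : 0 < par.Q := by linarith only [par.hQ]
    have h7 : (par.ℓ : ℝ) ^ p.toReal * (4 / par.Q + 2 * Real.log (Fintype.card V) / par.T) *
        ‖Gv x - Gv y‖ ^ p.toReal ≤ δ / 6 * ‖f x - f y‖ ^ p.toReal := by
      have h8 : (par.ℓ : ℝ) ^ p.toReal * (4 / par.Q + 2 * Real.log (Fintype.card V) / par.T) * 2 ≤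
          δ / 6 := par.hsm.trans (by linarith only [hδ'le])
      have h9 : 0 ≤ (par.ℓ : ℝ) ^ p.toReal *
          (4 / par.Q + 2 * Real.log (Fintype.card V) / par.T) := by (clear * - hQ0 hlog; positivity)
      calc (par.ℓ : ℝ) ^ p.toReal * (4 / par.Q + 2 * Real.log (Fintype.card V) / par.T) *
            ‖Gv x - Gv y‖ ^ p.toReal
          ≤ (par.ℓ : ℝ) ^ p.toReal * (4 / par.Q + 2 * Real.log (Fintype.card V) / par.T) *
            (2 * ‖f x - f y‖ ^ p.toReal) := mul_le_mul_of_nonneg_left (by linarith only [h4, h5]) h9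
        _ = ((par.ℓ : ℝ) ^ p.toReal * (4 / par.Q + 2 * Real.log (Fintype.card V) / par.T) * 2) *
            ‖f x - f y‖ ^ p.toReal := by ring
        _ ≤ _ := mul_le_mul_of_nonneg_right h8 h0
    have h8 := h3.trans h7
    rw [abs_le] at h1 h2 h8
    have h9 : 0 ≤ δ * ‖f x - f y‖ ^ p.toReal := mul_nonneg hδ.le h0
    constructor <;> nlinarith only [h1.1, h1.2, h2.1, h2.2, h8.1, h8.2, h1, h2, h8]

end Vale.Agent.P249.H445
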